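import Vale.Agent.P300LT.Fam
import Vale.Agent.P300LP.Even

/-!
# P300LT: special cycles are virtually even
-/

namespace P300LT

theorem even : EVEN := Vale.Agent.P300LP.even_tf tfam

end P300LT
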